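import Mathlib

namespace Vale.Agent.P057

open Finset

/-- Lift of a residue modulo `P` to the interval `[0,2)`. -/
noncomputable def ph (P : ℕ) (x : ZMod P) : ℝ := 2 * (x.val : ℝ) / P

/-- Distance of `2 g / P` to the nearest integer. -/
noncomputable def nu (P : ℕ) (g : ZMod P) : ℝ := |((g + g).valMinAbs : ℝ)| / P

/-- A building block: a bounded weight whose midpoint defect dominates the margin. -/
def Valid {H : Type} [AddCommGroup H] (mg : H → H → ℝ) (C : ℝ) (T : Finset H) : Prop :=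
  ∃ f : H → ℝ, (∀ x ∈ T, 0 ≤ f x ∧ f x ≤ C) ∧
    ∀ x ∈ T, ∀ y ∈ T, ∀ z ∈ T, x + z = y + y → mg x z ≤ f x + f z - 2 * f y

lemma Valid.mono {H : Type} [AddCommGroup H] {mg mg' : H → H → ℝ} {C : ℝ} {T : Finset H}
    (h : Valid mg C T) (hm : ∀ x z, mg' x z ≤ mg x z) : Valid mg' C T := by
  obtain ⟨f, h1, h2⟩ := h
  exact ⟨f, h1, fun x hx y hy z hz e => (hm x z).trans (h2 x hx y hy z hz e)⟩

variable {P : ℕ}

lemma ph_nonneg (x : ZMod P) : 0 ≤ ph P x := by unfold ph; positivity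

lemma ph_lt [NeZero P] (x : ZMod P) : ph P x < 2 := by
  unfold ph
  have hP : (0 : ℝ) < P := by exact_mod_cast Nat.pos_of_ne_zero (NeZero.ne P)
  have : (x.val : ℝ) < P := by exact_mod_cast ZMod.val_lt x
  rw [div_lt_iff₀ hP]; linarith

lemma ph_tri [NeZero P] {x y z : ZMod P} (h : x + z = y + y) :
    ph P x + ph P z = 2 * ph P y ∨ ph P x + ph P z = 2 * ph P y + 2 ∨
      ph P x + ph P z = 2 * ph P y - 2 := by
  have hP : (0 : ℝ) < P := by exact_mod_cast Nat.pos_of_ne_zero (NeZero.ne P)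
  have h1 : (((x.val : ℤ) + z.val - 2 * y.val : ℤ) : ZMod P) = 0 := by
    push_cast
    simp only [ZMod.natCast_val, ZMod.cast_id', id_eq]
    rw [h]; ring
  rw [ZMod.intCast_zmod_eq_zero_iff_dvd] at h1
  obtain ⟨k, hk⟩ := h1
  have hx : (x.val : ℤ) < P := by exact_mod_cast ZMod.val_lt x
  have hy : (y.val : ℤ) < P := by exact_mod_cast ZMod.val_lt y
  have hz : (z.val : ℤ) < P := by exact_mod_cast ZMod.val_lt z
  have hx0 : (0 : ℤ) ≤ x.val := by positivity
  have hy0 : (0 : ℤ) ≤ y.val := by positivity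
  have hz0 : (0 : ℤ) ≤ z.val := by positivity
  have hk1 : k < 2 := by nlinarith
  have hk2 : -2 < k := by nlinarith
  have hkR : (x.val : ℝ) + z.val - 2 * y.val = P * k := by exact_mod_cast hk
  have key : ph P x + ph P z = 2 * ph P y + 2 * k := by
    unfold ph; field_simp; linarith
  interval_cases k
  · right; right; rw [key]; push_cast; ring
  · left; rw [key]; push_cast; ring
  · right; left; rw [key]; push_cast; ring

lemma ph_sum3 [NeZero P] {x z s : ZMod P} (h : x + z + s = 0) (hx : 0 < ph P x) :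
    2 ≤ ph P x + ph P z + ph P s := by
  have hP : (0 : ℝ) < P := by exact_mod_cast Nat.pos_of_ne_zero (NeZero.ne P)
  have h1 : ((x.val + z.val + s.val : ℕ) : ZMod P) = 0 := by
    push_cast
    simp only [ZMod.natCast_val, ZMod.cast_id', id_eq]
    exact h
  rw [ZMod.natCast_eq_zero_iff] at h1
  have hx1 : 0 < x.val := by
    by_contra h0
    have : x.val = 0 := by omega
    unfold ph at hx
    rw [this] at hx; simp at hx
  have h2 : P ≤ x.val + z.val + s.val := Nat.le_of_dvd (by omega) h1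
  have h3 : (P : ℝ) ≤ x.val + z.val + s.val := by exact_mod_cast h2
  unfold ph
  rw [← add_div, ← add_div, le_div_iff₀ hP]; linarith

lemma nu_nonneg (g : ZMod P) : 0 ≤ nu P g := by unfold nu; positivity

lemma nu_le_of [NeZero P] (g : ZMod P) (t : ℤ) (h : (t : ZMod P) = g + g) :
    nu P g ≤ |(t : ℝ)| / P := by
  unfold nu
  have h1 : ((g + g).valMinAbs).natAbs ≤ t.natAbs :=
    ZMod.natAbs_min_of_le_div_two P _ _ (by rw [h]; simp) (ZMod.natAbs_valMinAbs_le _)
  have h2 : |(g + g).valMinAbs| ≤ |t| := by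
    rw [Int.abs_eq_natAbs, Int.abs_eq_natAbs]; exact_mod_cast h1
  have h3 : |((g + g).valMinAbs : ℝ)| ≤ |(t : ℝ)| := by exact_mod_cast h2
  gcongr

lemma nu_sq_le [NeZero P] (x z : ZMod P) : nu P (x - z) ^ 2 ≤ (ph P x - ph P z) ^ 2 := by
  have hP : (0 : ℝ) < P := by exact_mod_cast Nat.pos_of_ne_zero (NeZero.ne P)
  have h := nu_le_of (x - z) (2 * ((x.val : ℤ) - z.val)) (by
    push_cast
    simp only [ZMod.natCast_val, ZMod.cast_id', id_eq]
    ring)
  have e : |((2 * ((x.val : ℤ) - z.val) : ℤ) : ℝ)| / P = |ph P x - ph P z| := by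
    unfold ph
    rw [← sub_div, abs_div, abs_of_pos hP]
    push_cast
    congr 2; ring
  rw [e] at h
  calc nu P (x - z) ^ 2 ≤ |ph P x - ph P z| ^ 2 := by
        gcongr; exact nu_nonneg _
    _ = _ := sq_abs _

lemma nu_sq_le' [NeZero P] (x z : ZMod P) :
    nu P (x - z) ^ 2 ≤ (ph P (-(x + x)) - ph P (-(z + z))) ^ 2 := by
  have hP : (0 : ℝ) < P := by exact_mod_cast Nat.pos_of_ne_zero (NeZero.ne P)
  have h := nu_le_of (x - z) (((-(z + z)).val : ℤ) - (-(x + x)).val) (by
    push_cast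
    simp only [ZMod.natCast_val, ZMod.cast_id', id_eq]
    ring)
  have e : |(((((-(z + z)).val : ℤ) - (-(x + x)).val : ℤ)) : ℝ)| / P * 2
      = |ph P (-(x + x)) - ph P (-(z + z))| := by
    unfold ph
    rw [← sub_div, abs_div, abs_of_pos hP, ← mul_sub, abs_mul, abs_sub_comm]
    push_cast
    rw [abs_two]; ring
  have h0 := nu_nonneg (x - z)
  have h' : nu P (x - z) ≤ |ph P (-(x + x)) - ph P (-(z + z))| := by linarith
  calc nu P (x - z) ^ 2 ≤ |ph P (-(x + x)) - ph P (-(z + z))| ^ 2 := by gcongr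
    _ = _ := sq_abs _

lemma ph_sub_sq_le [NeZero P] (x z : ZMod P) : (ph P x - ph P z) ^ 2 ≤ 4 := by
  have := ph_nonneg x
  have := ph_nonneg z
  have := ph_lt x
  have := ph_lt z
  nlinarith

/-- Counting residues whose lift lies in an interval. -/
lemma card_interval [NeZero P] (a b : ℝ) (ha : 0 ≤ a) (hb : b ≤ 2) (S : Finset (ZMod P))
    (hS : ∀ x, a ≤ ph P x → ph P x < b → x ∈ S) : (b - a) * P / 2 - 1 ≤ S.card := by
  have hP : (0 : ℝ) < P := by exact_mod_cast Nat.pos_of_ne_zero (NeZero.ne P)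
  have h1 : (Finset.Ico ⌈a * P / 2⌉₊ ⌈b * P / 2⌉₊).card ≤ S.card := by
    have hlt : ∀ j ∈ Finset.Ico ⌈a * P / 2⌉₊ ⌈b * P / 2⌉₊, j < P := by
      intro j hj
      rw [Finset.mem_Ico, Nat.lt_ceil] at hj
      have : (j : ℝ) < P := by nlinarith [hj.2]
      exact_mod_cast this
    refine Finset.card_le_card_of_injOn (fun j : ℕ => (j : ZMod P)) ?_ ?_
    · intro j hj
      have hj' := hlt j hj
      rw [Finset.mem_coe, Finset.mem_Ico, Nat.lt_ceil, Nat.ceil_le] at hj
      apply hS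
      · unfold ph
        rw [ZMod.val_cast_of_lt hj', le_div_iff₀ hP]; linarith [hj.1]
      · unfold ph
        rw [ZMod.val_cast_of_lt hj', div_lt_iff₀ hP]; linarith [hj.2]
    · intro i hi j hj e
      have := congrArg ZMod.val e
      simp only at this
      rwa [ZMod.val_cast_of_lt (hlt i hi), ZMod.val_cast_of_lt (hlt j hj)] at this
  rw [Nat.card_Ico] at h1
  have h2 : ⌈b * P / 2⌉₊ ≤ S.card + ⌈a * P / 2⌉₊ := by omega
  have h3 : (⌈b * P / 2⌉₊ : ℝ) ≤ S.card + ⌈a * P / 2⌉₊ := by exact_mod_cast h2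
  have h4 := Nat.le_ceil (b * P / 2)
  have h5 := Nat.ceil_lt_add_one (show 0 ≤ a * P / 2 by positivity)
  linarith

/-- Few residues have small `nu`. -/
lemma card_nu_le [Fact P.Prime] (hP2 : 2 < P) (r : ℝ) (hr : 0 ≤ r) :
    ((Finset.univ.filter (fun g : ZMod P => nu P g ≤ r)).card : ℝ) ≤ 2 * (r * P) + 1 := by
  have hP : (0 : ℝ) < P := by exact_mod_cast (show 0 < P by omega)
  have h2 : (2 : ZMod P) ≠ 0 := by
    intro h
    have : ((2 : ℕ) : ZMod P) = 0 := by exact_mod_cast h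
    rw [ZMod.natCast_eq_zero_iff] at this
    have := Nat.le_of_dvd (by norm_num) this
    omega
  have h1 : (Finset.univ.filter (fun g : ZMod P => nu P g ≤ r)).card
      ≤ (Finset.Icc (-⌊r * P⌋) ⌊r * P⌋).card := by
    refine Finset.card_le_card_of_injOn (fun g : ZMod P => (g + g).valMinAbs) ?_ ?_
    · intro g hg
      rw [Finset.mem_coe, Finset.mem_filter] at hg
      have hg2 := hg.2
      unfold nu at hg2
      rw [div_le_iff₀ hP] at hg2
      have : |(g + g).valMinAbs| ≤ ⌊r * P⌋ := by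
        rw [Int.le_floor]; exact_mod_cast hg2
      rw [Finset.mem_coe, Finset.mem_Icc]
      exact abs_le.mp this
    · intro g _ g' _ e
      have e2 : g + g = g' + g' := ZMod.valMinAbs_inj.mp e
      have : (2 : ZMod P) * g = 2 * g' := by linear_combination e2
      exact mul_left_cancel₀ h2 this
  rw [Int.card_Icc] at h1
  have h0 : 0 ≤ ⌊r * P⌋ := Int.floor_nonneg.mpr (by positivity)
  have h3 : ((Finset.univ.filter (fun g : ZMod P => nu P g ≤ r)).card : ℤ)
      ≤ 2 * ⌊r * P⌋ + 1 := by omega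
  have h4 : ((Finset.univ.filter (fun g : ZMod P => nu P g ≤ r)).card : ℝ)
      ≤ 2 * (⌊r * P⌋ : ℝ) + 1 := by exact_mod_cast h3
  have := Int.floor_le (r * P)
  linarith

end Vale.Agent.P057
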