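import Mathlib

namespace Vale.Agent.P057

/-- Height cap of the one-dimensional fibre, in units of `1/3000`. -/
def be (ny i : ℕ) : ℕ := 4 * (ny - 5 * (i + 1))

def vv (A B i : ℕ) : ℕ := if 100 ≤ i then 1 else max 1 (A + (B + 1) / 2 - B * (i + 200))

def ee (ny A B i : ℕ) : ℕ :=
  if 100 ≤ i then 0 else min (be ny i - (3000 + vv A B i)) (3000 - vv A B i)

def ww (ny A B i : ℕ) : ℕ :=
  if 100 ≤ i then min (min 3000 (be ny i)) (A - B * i) - 1
  else min (min (be ny i - vv A B i) (3000 - vv A B i)) (3000 - ee ny A B i)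

def tab (k : ℕ) : ℕ × ℕ :=
  match k with
  | 0 => (6232, 20)
  | 1 => (6340, 20)
  | 2 => (6144, 19)
  | 3 => (5948, 18)
  | 4 => (5996, 18)
  | 5 => (5796, 17)
  | 6 => (5594, 16)
  | 7 => (5648, 16)
  | 8 => (5696, 16)
  | _ => (5482, 15)

def par (ny : ℕ) : ℕ × ℕ := if ny < 1560 then (4 * ny - 20, 20) else tab ((ny - 1560) / 30)

def nyy (j : ℕ) : ℕ := if 100 ≤ j then 2560 - 6 * j else 774 + 12 * j

def sumTo (f : ℕ → ℕ) (n : ℕ) : ℕ := Nat.rec 0 (fun k acc => acc + f k) n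

lemma sumTo_eq (f : ℕ → ℕ) (n : ℕ) : sumTo f n = ∑ i ∈ Finset.range n, f i := by
  induction n with
  | zero => rfl
  | succ n ih => rw [Finset.sum_range_succ, ← ih]; rfl

def tot' (ny A B : ℕ) : ℕ := sumTo (fun i => ww ny A B i + ee ny A B i) 300

def tot (ny : ℕ) : ℕ := tot' ny (par ny).1 (par ny).2

lemma total_1 : sumTo (fun j => tot (nyy j)) 300 = 162539880 := by decide +kernel

end Vale.Agent.P057
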