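import Vale.Agent.P057.Level
import Vale.Agent.P057.Num

namespace Vale.Agent.P057

open Finset

variable {P : ℕ}

/-! ### Arithmetic of the parameters -/

lemma vv_pos (A B i : ℕ) : 1 ≤ vv A B i := by unfold vv; split_ifs <;> omega

lemma we_le (ny A B i : ℕ) : ww ny A B i + ee ny A B i ≤ 3000 := by
  unfold ww ee; split_ifs <;> omega

lemma ww_cap (ny A B i : ℕ) : ww ny A B i = 0 ∨
    (vv A B i + ww ny A B i ≤ 3000 ∧ vv A B i + ww ny A B i ≤ be ny i) := by
  unfold ww
  split_ifs with h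
  · have : vv A B i = 1 := by unfold vv; rw [if_pos h]
    omega
  · omega

lemma ee_cap (ny A B i : ℕ) : ee ny A B i = 0 ∨
    (vv A B i + ee ny A B i ≤ 3000 ∧ 3000 + vv A B i + ee ny A B i ≤ be ny i) := by
  unfold ee
  split_ifs with h
  · omega
  · omega

lemma early_e (ny A B i : ℕ) (h : 100 ≤ i) : ee ny A B i = 0 := by unfold ee; rw [if_pos h]

lemma early_w (ny A B i : ℕ) (h : 100 ≤ i) :
    ww ny A B i = 0 ∨ vv A B i + ww ny A B i + B * i ≤ A := by
  have : vv A B i = 1 := by unfold vv; rw [if_pos h]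
  unfold ww
  rw [if_pos h]
  omega

lemma late_v (A B l : ℕ) (h : l < 100) : 2 * A + B ≤ 2 * vv A B l + 2 * (B * (l + 200)) := by
  unfold vv
  rw [if_neg (by omega)]
  omega

/-! ### The fibres of the two-dimensional blocks -/

noncomputable def fib (P : ℕ) [NeZero P] (ny A B i : ℕ) : Finset (ZMod P) :=
  d1 P ((vv A B i : ℝ) / 3000) (((vv A B i : ℝ) + ww ny A B i) / 3000)
    (((vv A B i : ℝ) + ee ny A B i) / 3000)

lemma fib_valid [NeZero P] (ny A B i : ℕ) :
    Valid (fun x z => (ph P x - ph P z) ^ 2) 8 (fib P ny A B i) := by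
  apply d1_valid
  · positivity
  · have : (ww ny A B i : ℝ) + ee ny A B i ≤ 3000 := by exact_mod_cast we_le ny A B i
    linarith

lemma fib_pos [NeZero P] {ny A B i : ℕ} {x : ZMod P} (hx : x ∈ fib P ny A B i) : 0 < ph P x := by
  have : (1 : ℝ) ≤ vv A B i := by exact_mod_cast vv_pos A B i
  rcases mem_d1.mp hx with h | h <;> linarith [h.1]

lemma fib_lt_be [NeZero P] {ny A B i : ℕ} {x : ZMod P} (hx : x ∈ fib P ny A B i) :
    ph P x < (be ny i : ℝ) / 3000 := by
  rcases mem_d1.mp hx with h | h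
  · rcases ww_cap ny A B i with h0 | ⟨_, h0⟩
    · rw [h0] at h; push_cast at h; linarith [h.1, h.2.1]
    · have : (vv A B i : ℝ) + ww ny A B i ≤ be ny i := by exact_mod_cast h0
      linarith [h.2.1]
  · rcases ee_cap ny A B i with h0 | ⟨_, h0⟩
    · rw [h0] at h; push_cast at h; linarith [h.1, h.2]
    · have : 3000 + (vv A B i : ℝ) + ee ny A B i ≤ be ny i := by exact_mod_cast h0
      linarith [h.2]

lemma fib_early [NeZero P] {ny A B i : ℕ} (hi : 100 ≤ i) {x : ZMod P} (hx : x ∈ fib P ny A B i) :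
    ph P x < 1 ∧ ph P x < ((A : ℝ) - B * i) / 3000 := by
  rcases mem_d1.mp hx with h | h
  · refine ⟨h.2.2, ?_⟩
    rcases early_w ny A B i hi with h0 | h0
    · rw [h0] at h; push_cast at h; linarith [h.1, h.2.1]
    · have : (vv A B i : ℝ) + ww ny A B i + B * i ≤ A := by exact_mod_cast h0
      linarith [h.2.1]
  · rw [early_e ny A B i hi] at h
    push_cast at h; linarith [h.1, h.2]

lemma fib_excl [NeZero P] (ny A B : ℕ) (i j l : ℕ) (hi : i < 300) (hj : j < 300) (_ : l < 300)
    (h : 2 * l + 400 ≤ i + j + 1) (x : ZMod P) (hx : x ∈ fib P ny A B i) (z : ZMod P)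
    (hz : z ∈ fib P ny A B j) (y : ZMod P) (hy : y ∈ fib P ny A B l) : x + z ≠ y + y := by
  intro e
  have x0 := fib_pos hx
  have z0 := fib_pos hz
  obtain ⟨x1, x2⟩ := fib_early (by omega) hx
  obtain ⟨z1, z2⟩ := fib_early (by omega) hz
  have hv : (2 * A + B : ℝ) ≤ 2 * vv A B l + 2 * (B * (l + 200)) := by
    exact_mod_cast late_v A B l (by omega)
  have hB : (B : ℝ) * (2 * l + 400) ≤ B * (i + j + 1) := by
    have : (2 * l + 400 : ℝ) ≤ i + j + 1 := by exact_mod_cast h
    gcongr
  have key : ph P x + ph P z < 2 * ((vv A B l : ℝ) / 3000) := by linarith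
  have y0 := ph_nonneg y
  rcases mem_d1.mp hy with h1 | h1 <;> rcases ph_tri e with h2 | h2 | h2 <;> linarith [h1.1, h1.2]

lemma card_fib [NeZero P] (ny A B i : ℕ) :
    ((ww ny A B i + ee ny A B i : ℕ) : ℝ) * ((P : ℝ) / 6000 - 1) ≤ (fib P ny A B i).card := by
  classical
  set v : ℝ := (vv A B i : ℝ) with hv
  set w : ℝ := (ww ny A B i : ℝ) with hw
  set e : ℝ := (ee ny A B i : ℝ) with he
  have v0 : 0 ≤ v := by positivity
  have hsplit := Finset.card_filter_add_card_filter_not (s := fib P ny A B i)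
    (fun x => ph P x < 1)
  have h1 : w * ((P : ℝ) / 6000 - 1) ≤ ((fib P ny A B i).filter (fun x => ph P x < 1)).card := by
    rcases Nat.eq_zero_or_pos (ww ny A B i) with h0 | h0
    · rw [hw, h0]; simp
    · have w1 : 1 ≤ w := by rw [hw]; exact_mod_cast h0
      have hc : v + w ≤ 3000 := by
        rcases ww_cap ny A B i with h | h
        · omega
        · rw [hv, hw]; exact_mod_cast h.1
      have := card_interval (P := P) (v / 3000) ((v + w) / 3000) (by positivity) (by linarith)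
        ((fib P ny A B i).filter (fun x => ph P x < 1)) (fun x h1 h2 => by
          rw [Finset.mem_filter]
          have h3 : ph P x < 1 := by linarith
          exact ⟨mem_d1.mpr (Or.inl ⟨h1, h2, h3⟩), h3⟩)
      linarith
  have h2 : e * ((P : ℝ) / 6000 - 1) ≤ ((fib P ny A B i).filter (fun x => ¬ ph P x < 1)).card := by
    rcases Nat.eq_zero_or_pos (ee ny A B i) with h0 | h0
    · rw [he, h0]; simp
    · have w1 : 1 ≤ e := by rw [he]; exact_mod_cast h0
      have hc : v + e ≤ 3000 := by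
        rcases ee_cap ny A B i with h | h
        · omega
        · rw [hv, he]; exact_mod_cast h.1
      have := card_interval (P := P) (1 + v / 3000) (1 + (v + e) / 3000) (by positivity)
        (by linarith)
        ((fib P ny A B i).filter (fun x => ¬ ph P x < 1)) (fun x h1 h2 => by
          rw [Finset.mem_filter]
          have h3 : ¬ ph P x < 1 := by
            have : 0 ≤ v / 3000 := by positivity
            linarith
          exact ⟨mem_d1.mpr (Or.inr ⟨h1, h2⟩), h3⟩)
      linarith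
  have h3 : (((fib P ny A B i).filter (fun x => ph P x < 1)).card : ℝ)
      + ((fib P ny A B i).filter (fun x => ¬ ph P x < 1)).card = (fib P ny A B i).card := by
    exact_mod_cast hsplit
  push_cast
  linarith

/-! ### The two-dimensional blocks -/

noncomputable def blk2 (P : ℕ) [NeZero P] (ny : ℕ) : Finset (ZMod P × ZMod P) :=
  up P (fib P ny (par ny).1 (par ny).2)

lemma blk2_valid [NeZero P] (ny : ℕ) :
    Valid (fun p q => (ph P p.1 - ph P q.1) ^ 2 + (ph P p.2 - ph P q.2) ^ 2) (upC 8 4)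
      (blk2 P ny) :=
  up_valid (fun x z => (ph P x - ph P z) ^ 2) 8 4 _ (by norm_num) (by norm_num) ph_sub_sq_le
    (fun i => fib_valid ny _ _ i) (fib_excl ny _ _)

lemma blk2_height [NeZero P] {ny : ℕ} {p : ZMod P × ZMod P} (hp : p ∈ blk2 P ny) :
    0 < ph P p.1 ∧ 0 < ph P p.2 ∧ ph P p.1 + 3 / 4 * ph P p.2 < (ny : ℝ) / 1000 := by
  obtain ⟨i, _, h1, h2⟩ := mem_up.mp hp
  rw [mem_slice] at h1
  have h3 := fib_pos h2
  have h4 := fib_lt_be h2
  refine ⟨lt_of_lt_of_le (by positivity) h1.1, h3, ?_⟩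
  have h5 : 0 < be ny i := by
    have : (0 : ℝ) < be ny i := by linarith
    exact_mod_cast this
  have h6 : be ny i + 20 * (i + 1) = 4 * ny := by unfold be at h5 ⊢; omega
  have h7 : (be ny i : ℝ) + 20 * (i + 1) = 4 * ny := by exact_mod_cast h6
  linarith [h1.2]

lemma card_blk2 [NeZero P] (hP : 6000 ≤ P) (ny : ℕ) :
    ((9999 / 10000 : ℝ) * P / 400 - 1) * ((P : ℝ) / 6000 - 1) * tot ny ≤ (blk2 P ny).card := by
  have hP' : (6000 : ℝ) ≤ P := by exact_mod_cast hP
  unfold blk2 tot tot'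
  rw [card_up, sumTo_eq]
  push_cast
  rw [Finset.mul_sum]
  refine Finset.sum_le_sum fun i hi => ?_
  have h1 := card_slice (P := P) (Finset.mem_range.mp hi)
  have h2 := card_fib (P := P) ny (par ny).1 (par ny).2 i
  push_cast at h2
  rw [mul_assoc, mul_comm ((P : ℝ) / 6000 - 1)]
  apply mul_le_mul h1 h2
  · apply mul_nonneg (by positivity); linarith
  · positivity

/-! ### The three-dimensional block -/

noncomputable def fib3 (P : ℕ) [NeZero P] (j : ℕ) : Finset (ZMod P × ZMod P) :=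
  if 100 ≤ j then blk2 P (nyy j) else dbl (blk2 P (nyy j))

noncomputable def blk3 (P : ℕ) [NeZero P] : Finset (ZMod P × ZMod P × ZMod P) := up P (fib3 P)

lemma fib3_valid [NeZero P] (j : ℕ) :
    Valid (fun p q => nu P (p.1 - q.1) ^ 2 + nu P (p.2 - q.2) ^ 2) (upC 8 4) (fib3 P j) := by
  unfold fib3
  split_ifs
  · exact (blk2_valid _).mono (fun x z => add_le_add (nu_sq_le _ _) (nu_sq_le _ _))
  · exact (dbl_valid (blk2_valid _)).mono
      (fun x z => add_le_add (nu_sq_le' _ _) (nu_sq_le' _ _))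

lemma fib3_excl [NeZero P] (i j l : ℕ) (hi : i < 300) (hj : j < 300) (_ : l < 300)
    (h : 2 * l + 400 ≤ i + j + 1) (x : ZMod P × ZMod P) (hx : x ∈ fib3 P i)
    (z : ZMod P × ZMod P) (hz : z ∈ fib3 P j) (y : ZMod P × ZMod P) (hy : y ∈ fib3 P l) :
    x + z ≠ y + y := by
  intro e
  unfold fib3 at hx hz hy
  rw [if_pos (by omega)] at hx hz
  rw [if_neg (by omega), mem_dbl] at hy
  obtain ⟨x1, x2, x3⟩ := blk2_height hx
  obtain ⟨_, _, z3⟩ := blk2_height hz
  obtain ⟨_, _, y3⟩ := blk2_height hy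
  have e0 : x + z + -(y + y) = 0 := by rw [e]; abel
  have e1 := ph_sum3 (show x.1 + z.1 + (-(y + y)).1 = 0 from congrArg Prod.fst e0) x1
  have e2 := ph_sum3 (show x.2 + z.2 + (-(y + y)).2 = 0 from congrArg Prod.snd e0) x2
  have hn : nyy i + nyy j + nyy l ≤ 3500 := by
    unfold nyy
    rw [if_pos (by omega), if_pos (by omega), if_neg (by omega)]
    omega
  have hn' : (nyy i : ℝ) + nyy j + nyy l ≤ 3500 := by exact_mod_cast hn
  linarith

/-- The margin on the three-dimensional group. -/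
noncomputable def mu (P : ℕ) (h : ZMod P × ZMod P × ZMod P) : ℝ :=
  nu P h.1 ^ 2 + (nu P h.2.1 ^ 2 + nu P h.2.2 ^ 2)

lemma blk3_valid [NeZero P] : Valid (fun x z => mu P (x - z)) (upC (upC 8 4) 8) (blk3 P) := by
  have h := up_valid (P := P)
    (fun p q : ZMod P × ZMod P => nu P (p.1 - q.1) ^ 2 + nu P (p.2 - q.2) ^ 2) (upC 8 4) 8
    (fib3 P) (by unfold upC; norm_num) (by norm_num)
    (fun x z => by
      linarith [nu_sq_le x.1 z.1, nu_sq_le x.2 z.2, ph_sub_sq_le x.1 z.1, ph_sub_sq_le x.2 z.2])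
    fib3_valid fib3_excl
  exact h.mono (fun x z => add_le_add (nu_sq_le x.1 z.1) le_rfl)

lemma two_inj [Fact P.Prime] (hP2 : 2 < P) (a b : ZMod P) (h : a + a = b + b) : a = b := by
  have h2 : (2 : ZMod P) ≠ 0 := by
    intro h
    have : ((2 : ℕ) : ZMod P) = 0 := by exact_mod_cast h
    rw [ZMod.natCast_eq_zero_iff] at this
    have := Nat.le_of_dvd (by norm_num) this
    omega
  have : (2 : ZMod P) * a = 2 * b := by linear_combination h
  exact mul_left_cancel₀ h2 this

lemma card_blk3 [Fact P.Prime] (hP : 10000000 ≤ P) :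
    (169 / 1000 : ℝ) * (P : ℝ) ^ 3 ≤ (blk3 P).card := by
  have hP' : (10000000 : ℝ) ≤ P := by exact_mod_cast hP
  have hc : ∀ j, (fib3 P j).card = (blk2 P (nyy j)).card := by
    intro j
    unfold fib3
    split_ifs
    · rfl
    · exact card_dbl _ (fun p q e => Prod.ext
        (two_inj (by omega) _ _ (congrArg Prod.fst e)) (two_inj (by omega) _ _ (congrArg Prod.snd e)))
  set s : ℝ := (9999 / 10000 : ℝ) * P / 400 - 1 with hs
  set t : ℝ := (P : ℝ) / 6000 - 1 with ht
  have hs1 : (9998 / 10000 : ℝ) * P / 400 ≤ s := by rw [hs]; linarith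
  have ht1 : (9994 / 10000 : ℝ) * P / 6000 ≤ t := by rw [ht]; linarith
  have h1 : s * (s * t * (162539880 : ℕ)) ≤ (blk3 P).card := by
    unfold blk3
    rw [card_up, ← total_1, sumTo_eq]
    push_cast
    rw [Finset.mul_sum, Finset.mul_sum]
    refine Finset.sum_le_sum fun j hj => ?_
    rw [hc]
    apply mul_le_mul (card_slice (Finset.mem_range.mp hj)) (card_blk2 (by omega) _)
    · have hs0 : 0 ≤ s := le_trans (by positivity) hs1
      have ht0 : 0 ≤ t := le_trans (by positivity) ht1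
      exact mul_nonneg (mul_nonneg hs0 ht0) (Nat.cast_nonneg _)
    · exact Nat.cast_nonneg _
  refine le_trans ?_ h1
  calc (169 / 1000 : ℝ) * (P : ℝ) ^ 3
      ≤ ((9998 / 10000 : ℝ) / 400 * ((9998 / 10000 : ℝ) / 400 * ((9994 / 10000 : ℝ) / 6000)
          * 162539880)) * (P : ℝ) ^ 3 := by
        gcongr; norm_num
    _ = ((9998 / 10000 : ℝ) * P / 400) * (((9998 / 10000 : ℝ) * P / 400)
          * ((9994 / 10000 : ℝ) * P / 6000) * 162539880) := by ring
    _ ≤ s * (s * t * (162539880 : ℕ)) := by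
        have : 0 ≤ s := le_trans (by positivity) hs1
        push_cast
        gcongr

end Vale.Agent.P057
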