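import Vale.Agent.P057.Block

namespace Vale.Agent.P057

open Finset

/-- A direction avoiding the bad set for every small multiple. -/
lemma exists_dir {H : Type} [AddCommGroup H] [Fintype H] (Bd : Finset H) (N n : ℕ)
    (hinj : ∀ d, 1 ≤ d → d ≤ N → Function.Injective (fun h : H => (2 * d) • h))
    (hcount : N * Bd.card ^ n < Fintype.card H ^ n) :
    ∃ θ : Fin n → H, ∀ d, 1 ≤ d → d ≤ N → ∃ k, (2 * d) • θ k ∉ Bd := by
  classical
  by_contra hcon
  push Not at hcon
  have hsub : (Finset.univ : Finset (Fin n → H)) ⊆ (Finset.Icc 1 N).biUnion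
      (fun d => Fintype.piFinset
        (fun _ : Fin n => Finset.univ.filter (fun h : H => (2 * d) • h ∈ Bd))) := by
    intro θ _
    obtain ⟨d, h1, h2, h3⟩ := hcon θ
    rw [Finset.mem_biUnion]
    refine ⟨d, Finset.mem_Icc.mpr ⟨h1, h2⟩, ?_⟩
    rw [Fintype.mem_piFinset]
    intro k
    simp [h3 k]
  have h1 := Finset.card_le_card hsub
  have h2 : ((Finset.Icc 1 N).biUnion (fun d => Fintype.piFinset
      (fun _ : Fin n => Finset.univ.filter (fun h : H => (2 * d) • h ∈ Bd)))).card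
      ≤ (Finset.Icc 1 N).card * Bd.card ^ n := by
    apply Finset.card_biUnion_le_card_mul
    intro d hd
    rw [Finset.mem_Icc] at hd
    rw [Fintype.card_piFinset, Finset.prod_const, Finset.card_univ, Fintype.card_fin]
    apply Nat.pow_le_pow_left
    refine Finset.card_le_card_of_injOn (fun h : H => (2 * d) • h) ?_ (hinj d hd.1 hd.2).injOn
    intro h hh
    simpa using hh
  rw [Finset.card_univ, Fintype.card_fun, Fintype.card_fin] at h1
  simp only [Nat.card_Icc, add_tsub_cancel_right] at h2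
  omega

/-- A thin level set of the total weight. -/
lemma exists_level {H : Type} (T : Finset H) (f : H → ℝ) (C ρ : ℝ) (hρ : 0 < ρ) (hC : 0 ≤ C)
    (hf : ∀ x ∈ T, 0 ≤ f x ∧ f x ≤ C) (n : ℕ) :
    ∃ S : Finset (Fin n → H), (∀ g ∈ S, ∀ k, g k ∈ T) ∧
      (∀ x ∈ S, ∀ y ∈ S, ∀ z ∈ S, ∑ k, f (x k) + ∑ k, f (z k) - 2 * ∑ k, f (y k) < ρ) ∧
      (T.card : ℝ) ^ n ≤ (2 * n * C / ρ + 1) * S.card := by
  classical
  set S0 : Finset (Fin n → H) := Fintype.piFinset (fun _ => T) with hS0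
  set w : (Fin n → H) → ℕ := fun g => ⌊(∑ k, f (g k)) / (ρ / 2)⌋₊ with hw
  set L : ℕ := ⌊2 * n * C / ρ⌋₊ + 1 with hL
  have hF0 : ∀ g ∈ S0, 0 ≤ ∑ k, f (g k) := fun g hg =>
    Finset.sum_nonneg fun k _ => (hf _ (Fintype.mem_piFinset.mp hg k)).1
  have hmap : ∀ g ∈ S0, w g ∈ Finset.range L := by
    intro g hg
    rw [Finset.mem_range, hL, Nat.lt_add_one_iff]
    apply Nat.floor_le_floor
    have : ∑ k, f (g k) ≤ n * C := by
      calc ∑ k, f (g k) ≤ ∑ _k : Fin n, C :=
            Finset.sum_le_sum fun k _ => (hf _ (Fintype.mem_piFinset.mp hg k)).2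
        _ = n * C := by simp
    rw [div_le_div_iff₀ (by positivity) hρ]
    nlinarith
  have hL0 : (0 : ℝ) < L := by rw [hL]; positivity
  obtain ⟨w0, _, hw0⟩ := Finset.exists_le_card_fiber_of_nsmul_le_card_of_maps_to
    (s := S0) (t := Finset.range L) (f := w) (b := (S0.card : ℝ) / L) hmap
    ⟨0, by simp [hL]⟩ (by
      rw [Finset.card_range, nsmul_eq_mul]
      exact le_of_eq (by field_simp))
  refine ⟨S0.filter (fun g => w g = w0), ?_, ?_, ?_⟩
  · intro g hg k
    exact Fintype.mem_piFinset.mp (Finset.mem_filter.mp hg).1 k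
  · have hb : ∀ g ∈ S0.filter (fun g => w g = w0),
        (w0 : ℝ) * (ρ / 2) ≤ ∑ k, f (g k) ∧ ∑ k, f (g k) < (w0 + 1) * (ρ / 2) := by
      intro g hg
      obtain ⟨h1, h2⟩ := Finset.mem_filter.mp hg
      have h3 := (Nat.floor_eq_iff (div_nonneg (hF0 g h1) (by positivity))).mp h2
      rw [le_div_iff₀ (by positivity), div_lt_iff₀ (by positivity)] at h3
      exact h3
    intro x hx y hy z hz
    have := hb x hx
    have := hb y hy
    have := hb z hz
    linarith [(hb x hx).2, (hb z hz).2, (hb y hy).1]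
  · have h1 : (S0.card : ℝ) = (T.card : ℝ) ^ n := by
      rw [hS0, Fintype.card_piFinset]; simp
    rw [div_le_iff₀ hL0, h1] at hw0
    have h2 : (L : ℝ) ≤ 2 * n * C / ρ + 1 := by
      rw [hL]; push_cast
      have := Nat.floor_le (show 0 ≤ 2 * n * C / ρ by positivity)
      linarith
    calc (T.card : ℝ) ^ n ≤ _ := hw0
      _ ≤ _ := by rw [mul_comm]; gcongr

/-- Averaging over translates. -/
lemma exists_shift {G : Type} [AddCommGroup G] [Fintype G] [DecidableEq G] (S : Finset G) (θ : G)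
    (N : ℕ) :
    ∃ β : G, (N : ℝ) * S.card ≤
      Fintype.card G * (((Finset.Icc 1 N).filter (fun a : ℕ => a • θ + β ∈ S)).card : ℝ) := by
  have h1 : ∑ β : G, ((Finset.Icc 1 N).filter (fun a : ℕ => a • θ + β ∈ S)).card = N * S.card := by
    simp_rw [Finset.card_filter]
    rw [Finset.sum_comm]
    have : ∀ a ∈ Finset.Icc 1 N, (∑ β : G, if a • θ + β ∈ S then 1 else 0) = S.card := by
      intro a _
      rw [← Finset.card_filter]
      refine Finset.card_bijective (fun β => a • θ + β) (AddGroup.addLeft_bijective _) ?_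
      intro β; simp
    rw [Finset.sum_congr rfl this]
    simp
  by_contra hcon
  push Not at hcon
  have h2 : ∑ β : G, (Fintype.card G : ℝ) *
      (((Finset.Icc 1 N).filter (fun a : ℕ => a • θ + β ∈ S)).card : ℝ)
      < ∑ _β : G, (N : ℝ) * S.card :=
    Finset.sum_lt_sum_of_nonempty Finset.univ_nonempty (fun β _ => hcon β)
  rw [← Finset.mul_sum, Finset.sum_const, Finset.card_univ, nsmul_eq_mul] at h2
  have h3 : ∑ β : G, (((Finset.Icc 1 N).filter (fun a : ℕ => a • θ + β ∈ S)).card : ℝ)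
      = N * S.card := by exact_mod_cast h1
  rw [h3] at h2
  exact lt_irrefl _ h2

/-- From a block in a finite group to a progression-free set of integers. -/
lemma block_to_set {H : Type} [AddCommGroup H] [Fintype H] (μ : H → ℝ) (hμ : ∀ h, 0 ≤ μ h)
    (C ρ : ℝ) (hC : 0 ≤ C) (hρ : 0 < ρ) (T : Finset H) (hT : Valid (fun x z => μ (x - z)) C T)
    (Bd : Finset H) (hBd : ∀ h, μ h ≤ ρ → h ∈ Bd) (N n : ℕ)
    (hinj : ∀ d, 1 ≤ d → d ≤ N → Function.Injective (fun h : H => (2 * d) • h))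
    (hcount : N * Bd.card ^ n < Fintype.card H ^ n) :
    ∃ A : Finset ℕ, A ⊆ Finset.Icc 1 N ∧
      (∀ a d : ℕ, 0 < d → ¬ (a ∈ A ∧ a + d ∈ A ∧ a + 2 * d ∈ A)) ∧
      (N : ℝ) * ((T.card : ℝ) / Fintype.card H) ^ n ≤ (2 * n * C / ρ + 1) * A.card := by
  classical
  obtain ⟨f, hf1, hf2⟩ := hT
  obtain ⟨θ, hθ⟩ := exists_dir Bd N n hinj hcount
  obtain ⟨S, hS1, hS2, hS3⟩ := exists_level T f C ρ hρ hC hf1 n
  obtain ⟨β, hβ⟩ := exists_shift S θ N
  refine ⟨(Finset.Icc 1 N).filter (fun a : ℕ => a • θ + β ∈ S), Finset.filter_subset _ _, ?_, ?_⟩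
  · rintro a d hd ⟨h1, h2, h3⟩
    rw [Finset.mem_filter, Finset.mem_Icc] at h1 h2 h3
    obtain ⟨k, hk⟩ := hθ d hd (by omega)
    have h4 : ρ < μ ((2 * d) • θ k) := by
      by_contra h; exact hk (hBd _ (not_lt.mp h))
    have h5 := hS2 _ h3.2 _ h2.2 _ h1.2
    have h6 : ∀ k, μ ((2 * d) • θ k) ≤ f (((a + 2 * d) • θ + β) k) + f ((a • θ + β) k)
        - 2 * f (((a + d) • θ + β) k) := by
      intro k
      have := hf2 _ (hS1 _ h3.2 k) _ (hS1 _ h2.2 k) _ (hS1 _ h1.2 k) (by
        simp only [Pi.add_apply, Pi.smul_apply, add_smul, two_mul]; abel)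
      have e : ((a + 2 * d) • θ + β) k - (a • θ + β) k = (2 * d) • θ k := by
        simp only [Pi.add_apply, Pi.smul_apply, add_smul]; abel
      simp only [e] at this
      exact this
    have h7 := Finset.sum_le_sum (s := Finset.univ) (fun k _ => h6 k)
    rw [Finset.sum_sub_distrib, Finset.sum_add_distrib, ← Finset.mul_sum] at h7
    have h8 : μ ((2 * d) • θ k) ≤ ∑ k, μ ((2 * d) • θ k) :=
      Finset.single_le_sum (f := fun k => μ ((2 * d) • θ k)) (fun k _ => hμ _) (Finset.mem_univ k)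
    linarith
  · rw [Fintype.card_fun, Fintype.card_fin] at hβ
    push_cast at hβ
    have hH : (0 : ℝ) < (Fintype.card H : ℝ) ^ n := by
      have : 0 < Fintype.card H := Fintype.card_pos
      positivity
    rw [div_pow, ← mul_div_assoc, div_le_iff₀ hH]
    have hW : 0 ≤ 2 * n * C / ρ + 1 := by positivity
    calc (N : ℝ) * (T.card : ℝ) ^ n ≤ N * ((2 * n * C / ρ + 1) * S.card) := by gcongr
      _ = (2 * n * C / ρ + 1) * (N * S.card) := by ring
      _ ≤ _ := mul_le_mul_of_nonneg_left hβ hW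
      _ = _ := by ring

lemma le_of_sq_le_sq_aux {a r : ℝ} (hr : 0 ≤ r) (h : a ^ 2 ≤ r ^ 2) : a ≤ r :=
  le_of_sq_le_sq h hr

/-- The constant of the three-dimensional block. -/
noncomputable def cc : ℝ := upC (upC 8 4) 8

lemma cc_nonneg : 0 ≤ cc := by unfold cc upC; norm_num

/-- The construction for a given dimension `n`. -/
lemma exists_set (N n : ℕ) (hN : 1 ≤ N) (hn : 1 ≤ n) :
    ∃ A : Finset ℕ, A ⊆ Finset.Icc 1 N ∧
      (∀ a d : ℕ, 0 < d → ¬ (a ∈ A ∧ a + d ∈ A ∧ a + 2 * d ∈ A)) ∧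
      (N : ℝ) * (169 / 1000 : ℝ) ^ n ≤
        (32 * n * cc + 1) * Real.exp (2 * Real.log N / (3 * n)) * A.card := by
  classical
  obtain ⟨P, hP1, hP2⟩ := Nat.exists_infinite_primes (4 * N + 10000000)
  have : Fact P.Prime := ⟨hP2⟩
  have hN' : (1 : ℝ) ≤ N := by exact_mod_cast hN
  have hn' : (1 : ℝ) ≤ n := by exact_mod_cast hn
  have hP' : 4 * (N : ℝ) + 10000000 ≤ P := by exact_mod_cast hP1
  have hP0 : (0 : ℝ) < P := by linarith
  have hL : 0 ≤ Real.log N := Real.log_nonneg hN'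
  set r : ℝ := Real.exp (-(Real.log N / (3 * n))) / 4 with hr
  have hr0 : 0 < r := by positivity
  have hrP : 1 ≤ r * P := by
    have h1 : Real.exp (-Real.log N) ≤ Real.exp (-(Real.log N / (3 * n))) := by
      apply Real.exp_le_exp.mpr
      have : Real.log N / (3 * n) ≤ Real.log N := div_le_self hL (by linarith)
      linarith
    rw [Real.exp_neg, Real.exp_log (by linarith)] at h1
    have h2 : (N : ℝ)⁻¹ / 4 ≤ r := by rw [hr]; linarith
    calc (1 : ℝ) = (N : ℝ)⁻¹ / 4 * (4 * N) := by field_simp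
      _ ≤ r * P := by gcongr; linarith
  set E : Finset (ZMod P) := Finset.univ.filter (fun g : ZMod P => nu P g ≤ r) with hE
  have hEc : (E.card : ℝ) ≤ 3 * (r * P) := by
    have := card_nu_le (P := P) (by omega) r hr0.le
    linarith
  have hcard : Fintype.card (ZMod P × ZMod P × ZMod P) = P ^ 3 := by
    simp [Fintype.card_prod, ZMod.card]; ring
  obtain ⟨A, h1, h2, h3⟩ := block_to_set (mu P)
    (fun h => by unfold mu; positivity) cc (r ^ 2) cc_nonneg (by positivity) (blk3 P) blk3_valid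
    (E ×ˢ E ×ˢ E) (by
      intro h hh
      unfold mu at hh
      have a1 := nu_nonneg h.1
      have a2 := nu_nonneg h.2.1
      have a3 := nu_nonneg h.2.2
      simp only [hE, Finset.mem_product, Finset.mem_filter, Finset.mem_univ, true_and]
      refine ⟨?_, ?_, ?_⟩ <;> apply le_of_sq_le_sq_aux hr0.le <;>
        linarith [sq_nonneg (nu P h.1), sq_nonneg (nu P h.2.1), sq_nonneg (nu P h.2.2)]) N n (by
      intro d hd1 hd2 p q e
      have hu : ((2 * d : ℕ) : ZMod P) ≠ 0 := by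
        intro h
        rw [ZMod.natCast_eq_zero_iff] at h
        have := Nat.le_of_dvd (by omega) h
        omega
      have e1 : (2 * d) • p.1 = (2 * d) • q.1 := congrArg Prod.fst e
      have e2 : (2 * d) • p.2.1 = (2 * d) • q.2.1 := congrArg (fun x => x.2.1) e
      have e3 : (2 * d) • p.2.2 = (2 * d) • q.2.2 := congrArg (fun x => x.2.2) e
      rw [nsmul_eq_mul, nsmul_eq_mul] at e1 e2 e3
      exact Prod.ext (mul_left_cancel₀ hu e1)
        (Prod.ext (mul_left_cancel₀ hu e2) (mul_left_cancel₀ hu e3))) (by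
      rw [hcard, Finset.card_product, Finset.card_product]
      have key : (N : ℝ) * ((E.card : ℝ) * (E.card * E.card)) ^ n < ((P : ℝ) ^ 3) ^ n := by
        have e1 : (N : ℝ) * (Real.exp (-(Real.log N / (3 * n))) ^ 3) ^ n = 1 := by
          rw [← pow_mul, ← Real.exp_nat_mul]
          have : ((3 * n : ℕ) : ℝ) * -(Real.log N / (3 * n)) = -Real.log N := by
            push_cast; field_simp
          rw [this, Real.exp_neg, Real.exp_log (by linarith)]
          field_simp
        calc (N : ℝ) * ((E.card : ℝ) * (E.card * E.card)) ^ n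
            ≤ N * ((3 * (r * P)) * ((3 * (r * P)) * (3 * (r * P)))) ^ n := by gcongr
          _ = (27 / 64 : ℝ) ^ n * (N * (Real.exp (-(Real.log N / (3 * n))) ^ 3) ^ n)
                * ((P : ℝ) ^ 3) ^ n := by
              have : (3 * (r * P)) * ((3 * (r * P)) * (3 * (r * P)))
                  = (27 / 64 : ℝ) * Real.exp (-(Real.log N / (3 * n))) ^ 3 * (P : ℝ) ^ 3 := by
                rw [hr]; ring
              rw [this, mul_pow, mul_pow]; ring
          _ < 1 * 1 * ((P : ℝ) ^ 3) ^ n := by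
              rw [e1]
              gcongr
              exact pow_lt_one₀ (by norm_num) (by norm_num) (by omega)
          _ = _ := by ring
      exact_mod_cast key)
  refine ⟨A, h1, h2, ?_⟩
  have h4 : (169 / 1000 : ℝ) ≤ ((blk3 P).card : ℝ) / Fintype.card (ZMod P × ZMod P × ZMod P) := by
    rw [hcard]
    push_cast
    rw [le_div_iff₀ (by positivity)]
    exact card_blk3 (by omega)
  have h5 : 2 * n * cc / r ^ 2 + 1 ≤ (32 * n * cc + 1) * Real.exp (2 * Real.log N / (3 * n)) := by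
    have e1 : 2 * n * cc / r ^ 2 = 32 * n * cc * Real.exp (2 * Real.log N / (3 * n)) := by
      have : Real.exp (2 * Real.log N / (3 * n)) * Real.exp (-(Real.log N / (3 * n))) ^ 2 = 1 := by
        rw [← Real.exp_nat_mul, ← Real.exp_add]
        rw [Real.exp_eq_one_iff]; push_cast; ring
      rw [div_eq_iff (by positivity), hr]
      linear_combination (-2 * n * cc) * this
    have e2 : 1 ≤ Real.exp (2 * Real.log N / (3 * n)) := Real.one_le_exp (by positivity)
    rw [e1]; linarith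
  calc (N : ℝ) * (169 / 1000 : ℝ) ^ n
      ≤ N * (((blk3 P).card : ℝ) / Fintype.card (ZMod P × ZMod P × ZMod P)) ^ n := by gcongr
    _ ≤ _ := h3
    _ ≤ _ := by gcongr

lemma poly_le_exp (a b ε : ℝ) (_ : 0 ≤ a) (hb : 0 ≤ b) (hε : 0 < ε) (u : ℝ) (hu1 : 1 ≤ u)
    (hu2 : 4 * (a + b) / ε ^ 2 ≤ u) : a * u + b ≤ Real.exp (ε * u) := by
  have h1 : ε * u / 2 ≤ Real.exp (ε * u / 2) := by
    linarith [Real.add_one_le_exp (ε * u / 2)]
  have h2 : (ε * u / 2) ^ 2 ≤ Real.exp (ε * u) := by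
    calc (ε * u / 2) ^ 2 ≤ Real.exp (ε * u / 2) ^ 2 := by gcongr
      _ = Real.exp (ε * u) := by rw [← Real.exp_nat_mul]; congr 1; push_cast; ring
  rw [div_le_iff₀ (by positivity)] at hu2
  have h3 : (a + b) * u ≤ (ε * u / 2) ^ 2 := by nlinarith
  nlinarith

theorem main (ε : ℝ) (hε : 0 < ε) : ∃ N₀ : ℕ, ∀ N : ℕ, N₀ ≤ N →
    ∃ A : Finset ℕ, A ⊆ Finset.Icc 1 N ∧
      (∀ a d : ℕ, 0 < d → ¬ (a ∈ A ∧ a + d ∈ A ∧ a + 2 * d ∈ A)) ∧
      (N : ℝ) * Real.exp (-(2 * √(2 / 3 * Real.log (1000 / 169)) + ε) * √(Real.log N))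
        ≤ A.card := by
  set l : ℝ := Real.log (1000 / 169) with hl
  have hl0 : 0 < l := Real.log_pos (by norm_num)
  set c : ℝ := √(2 / (3 * l)) with hc
  have hc0 : 0 < c := Real.sqrt_pos.mpr (by positivity)
  have hc2 : c ^ 2 = 2 / (3 * l) := Real.sq_sqrt (by positivity)
  have hcl : √(2 / 3 * l) = c * l := by
    rw [Real.sqrt_eq_iff_mul_self_eq (by positivity) (by positivity)]
    symm
    calc c * l * (c * l) = c ^ 2 * l ^ 2 := by ring
      _ = 2 / 3 * l := by rw [hc2]; field_simp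
  have hcc := cc_nonneg
  set a : ℝ := Real.exp l * (32 * cc * c) with ha
  set b : ℝ := Real.exp l * (32 * cc + 1) with hb
  set u0 : ℝ := max 1 (4 * (a + b) / ε ^ 2) with hu0
  refine ⟨⌈Real.exp (u0 ^ 2)⌉₊, fun N hN => ?_⟩
  have hN1 : Real.exp (u0 ^ 2) ≤ N := Nat.ceil_le.mp hN
  have hN0 : (0 : ℝ) < N := lt_of_lt_of_le (Real.exp_pos _) hN1
  have hN2 : 1 ≤ N := by exact_mod_cast hN0
  have hL : u0 ^ 2 ≤ Real.log N := (Real.le_log_iff_exp_le hN0).mpr hN1
  set u : ℝ := √(Real.log N) with hu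
  have huu : u0 ≤ u := Real.le_sqrt_of_sq_le hL
  have hu1 : 1 ≤ u := (le_max_left _ _).trans huu
  have hu2 : u ^ 2 = Real.log N := Real.sq_sqrt (le_trans (sq_nonneg _) hL)
  set n : ℕ := ⌈c * u⌉₊ with hn
  have hn1 : c * u ≤ n := Nat.le_ceil _
  have hn2 : (n : ℝ) < c * u + 1 := Nat.ceil_lt_add_one (by positivity)
  have hn0 : (0 : ℝ) < n := lt_of_lt_of_le (by positivity) hn1
  obtain ⟨A, h1, h2, h3⟩ := exists_set N n hN2 (by exact_mod_cast hn0)
  refine ⟨A, h1, h2, ?_⟩
  have e1 : (169 / 1000 : ℝ) ^ n = Real.exp (-(n * l)) := by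
    rw [Real.exp_neg, Real.exp_nat_mul, hl, Real.exp_log (by norm_num), ← inv_pow]
    norm_num
  have e2 : 2 * Real.log N / (3 * n) ≤ c * l * u := by
    rw [div_le_iff₀ (by positivity), ← hu2]
    have : c ^ 2 * (3 * l) = 2 := by rw [hc2]; field_simp
    calc 2 * u ^ 2 = c * l * u * (3 * (c * u)) := by linear_combination (-u ^ 2) * this
      _ ≤ c * l * u * (3 * n) := by gcongr
  have e3 : Real.exp l * (32 * n * cc + 1) ≤ Real.exp (ε * u) := by
    refine le_trans ?_ (poly_le_exp a b ε (by positivity) (by positivity) hε u hu1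
      ((le_max_right _ _).trans huu))
    rw [ha, hb]
    calc Real.exp l * (32 * n * cc + 1) ≤ Real.exp l * (32 * (c * u + 1) * cc + 1) := by gcongr
      _ = _ := by ring
  have hW : 0 < (32 * n * cc + 1) * Real.exp (2 * Real.log N / (3 * n)) := by positivity
  refine le_of_mul_le_mul_left (le_trans ?_ h3) hW
  rw [e1, hcl]
  have e4 : (32 * n * cc + 1) * Real.exp (2 * Real.log N / (3 * n))
      * Real.exp (-(2 * (c * l) + ε) * u) ≤ Real.exp (-(n * l)) := by
    have e5 : (32 * n * cc + 1) ≤ Real.exp (ε * u - l) := by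
      rw [Real.exp_sub, le_div_iff₀ (Real.exp_pos _)]; linarith
    calc (32 * n * cc + 1) * Real.exp (2 * Real.log N / (3 * n))
          * Real.exp (-(2 * (c * l) + ε) * u)
        ≤ Real.exp (ε * u - l) * Real.exp (c * l * u) * Real.exp (-(2 * (c * l) + ε) * u) := by
          gcongr
      _ = Real.exp (-((c * u + 1) * l)) := by
          rw [← Real.exp_add, ← Real.exp_add]; congr 1; ring
      _ ≤ Real.exp (-(n * l)) := by gcongr
  calc (32 * n * cc + 1) * Real.exp (2 * Real.log N / (3 * n))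
        * (N * Real.exp (-(2 * (c * l) + ε) * u))
      = N * ((32 * n * cc + 1) * Real.exp (2 * Real.log N / (3 * n))
        * Real.exp (-(2 * (c * l) + ε) * u)) := by ring
    _ ≤ N * Real.exp (-(n * l)) := by gcongr

lemma const_lt : 2 * √(2 / 3 * Real.log (1000 / 169)) < 2 * √(Real.log (24 / 7)) := by
  have h : 2 * Real.log (1000 / 169) < 3 * Real.log (24 / 7) := by
    have h1 : Real.log ((1000 / 169) ^ 2) < Real.log ((24 / 7) ^ 3) :=
      Real.log_lt_log (by norm_num) (by norm_num)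
    rw [Real.log_pow, Real.log_pow] at h1
    exact_mod_cast h1
  have h0 : 0 < Real.log (1000 / 169) := Real.log_pos (by norm_num)
  have : √(2 / 3 * Real.log (1000 / 169)) < √(Real.log (24 / 7)) :=
    Real.sqrt_lt_sqrt (by positivity) (by linarith)
  linarith

end Vale.Agent.P057
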