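import Vale.Agent.P057.Basic

namespace Vale.Agent.P057

open Finset

variable {P : ℕ}

/-! ### One-dimensional blocks -/

open Classical in
/-- The lifts in `[v,a) ∩ [0,1)` or in `[1+v,1+b)`. -/
noncomputable def d1 (P : ℕ) [NeZero P] (v a b : ℝ) : Finset (ZMod P) :=
  Finset.univ.filter (fun x => (v ≤ ph P x ∧ ph P x < a ∧ ph P x < 1) ∨
    (1 + v ≤ ph P x ∧ ph P x < 1 + b))

lemma mem_d1 [NeZero P] {v a b : ℝ} {x : ZMod P} : x ∈ d1 P v a b ↔
    (v ≤ ph P x ∧ ph P x < a ∧ ph P x < 1) ∨ (1 + v ≤ ph P x ∧ ph P x < 1 + b) := by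
  unfold d1; simp

noncomputable def g1 (t : ℝ) : ℝ := if t < 1 then 8 * (1 - t) ^ 2 else 8 * (2 - t) ^ 2

lemma d1_real (v a b X Y Z : ℝ) (hv : 0 ≤ v) (hab : a + b ≤ 1 + 2 * v)
    (hX2 : X < 2) (hY2 : Y < 2) (hZ2 : Z < 2)
    (hX : (v ≤ X ∧ X < a ∧ X < 1) ∨ (1 + v ≤ X ∧ X < 1 + b))
    (hY : (v ≤ Y ∧ Y < a ∧ Y < 1) ∨ (1 + v ≤ Y ∧ Y < 1 + b))
    (hZ : (v ≤ Z ∧ Z < a ∧ Z < 1) ∨ (1 + v ≤ Z ∧ Z < 1 + b))
    (h : X + Z = 2 * Y ∨ X + Z = 2 * Y + 2 ∨ X + Z = 2 * Y - 2) :
    (X - Z) ^ 2 ≤ g1 X + g1 Z - 2 * g1 Y := by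
  unfold g1
  rcases hX with ⟨x1, x2, x3⟩ | ⟨x1, x2⟩ <;> rcases hY with ⟨y1, y2, y3⟩ | ⟨y1, y2⟩ <;>
    rcases hZ with ⟨z1, z2, z3⟩ | ⟨z1, z2⟩
  all_goals
    first
      | rw [if_pos x3]
      | rw [if_neg (show ¬ X < 1 by linarith)]
  all_goals
    first
      | rw [if_pos y3]
      | rw [if_neg (show ¬ Y < 1 by linarith)]
  all_goals
    first
      | rw [if_pos z3]
      | rw [if_neg (show ¬ Z < 1 by linarith)]
  all_goals
    rcases h with h | h | h
  all_goals
    first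
      | (exfalso; linarith)
      | (have e : Y = (X + Z) / 2 := by linarith
         subst e; nlinarith [sq_nonneg (X - Z)])
      | (have e : Y = (X + Z) / 2 - 1 := by linarith
         subst e; nlinarith [sq_nonneg (X - Z)])
      | (have e : Y = (X + Z) / 2 + 1 := by linarith
         subst e; nlinarith [sq_nonneg (X - Z)])

lemma d1_valid [NeZero P] (v a b : ℝ) (hv : 0 ≤ v) (hab : a + b ≤ 1 + 2 * v) :
    Valid (fun x z => (ph P x - ph P z) ^ 2) 8 (d1 P v a b) := by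
  refine ⟨fun x => g1 (ph P x), ?_, ?_⟩
  · intro x _
    have h0 := ph_nonneg x
    have h2 := ph_lt x
    unfold g1
    dsimp only
    split_ifs with h
    · constructor
      · positivity
      · nlinarith
    · constructor
      · positivity
      · nlinarith
  · intro x hx y hy z hz e
    rw [mem_d1] at hx hy hz
    exact d1_real v a b _ _ _ hv hab (ph_lt x) (ph_lt y) (ph_lt z) hx hy hz (ph_tri e)

/-! ### Adding one coordinate -/

open Classical in
/-- The slice number `i` of the new coordinate. -/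
noncomputable def slice (P : ℕ) [NeZero P] (i : ℕ) : Finset (ZMod P) :=
  Finset.univ.filter (fun x => ((i : ℝ) + 1 / 10000) / 200 ≤ ph P x ∧ ph P x < ((i : ℝ) + 1) / 200)

lemma mem_slice [NeZero P] {i : ℕ} {x : ZMod P} : x ∈ slice P i ↔
    ((i : ℝ) + 1 / 10000) / 200 ≤ ph P x ∧ ph P x < ((i : ℝ) + 1) / 200 := by
  unfold slice; simp

lemma slice_idx [NeZero P] {i : ℕ} {x : ZMod P} (h : x ∈ slice P i) : ⌊200 * ph P x⌋₊ = i := by
  rw [mem_slice] at h
  rw [Nat.floor_eq_iff (by have := ph_nonneg x; positivity)]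
  constructor <;> linarith [h.1, h.2]

lemma card_slice [NeZero P] {i : ℕ} (hi : i < 300) :
    (9999 / 10000 : ℝ) * P / 400 - 1 ≤ (slice P i).card := by
  have hi' : (i : ℝ) + 1 ≤ 300 := by exact_mod_cast hi
  have h := card_interval (P := P) (((i : ℝ) + 1 / 10000) / 200) (((i : ℝ) + 1) / 200)
    (by positivity) (by linarith) (slice P i) (fun x h1 h2 => mem_slice.mpr ⟨h1, h2⟩)
  calc (9999 / 10000 : ℝ) * P / 400 - 1
      = (((i : ℝ) + 1) / 200 - ((i : ℝ) + 1 / 10000) / 200) * P / 2 - 1 := by ring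
    _ ≤ _ := h

open Classical in
/-- The block with fibres `A i` over the slices. -/
noncomputable def up (P : ℕ) [NeZero P] {H : Type} (A : ℕ → Finset H) : Finset (ZMod P × H) :=
  (Finset.range 300).biUnion (fun i => slice P i ×ˢ A i)

lemma mem_up [NeZero P] {H : Type} {A : ℕ → Finset H} {p : ZMod P × H} :
    p ∈ up P A ↔ ∃ i, i < 300 ∧ p.1 ∈ slice P i ∧ p.2 ∈ A i := by
  unfold up; simp

lemma card_up [NeZero P] {H : Type} (A : ℕ → Finset H) :
    (up P A).card = ∑ i ∈ Finset.range 300, (slice P i).card * (A i).card := by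
  classical
  unfold up
  rw [Finset.card_biUnion]
  · simp
  · intro i _ j _ hij
    rw [Function.onFun, Finset.disjoint_left]
    intro p hp hq
    rw [Finset.mem_product] at hp hq
    exact hij ((slice_idx hp.1).symm.trans (slice_idx hq.1))

/-- The weight bound after adding one coordinate. -/
noncomputable def upC (C D : ℝ) : ℝ := (2 + 8000000000000 * (D + 2 * C)) * (9 / 4) + C

lemma gap_sq (t : ℝ) (h : 1 / 2000000 ≤ t) : 1 / 4000000000000 ≤ t ^ 2 := by nlinarith

lemma K_gap (E s : ℝ) (hE : 0 ≤ E) (hs : 1 / 4000000000000 ≤ s) :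
    s + E ≤ (2 + 8000000000000 * E) / 2 * s := by nlinarith

lemma K_half (K s : ℝ) (hK : 2 ≤ K) (hs : 0 ≤ s) : s ≤ K / 2 * s := by nlinarith

lemma K_far (E u : ℝ) (hE : 0 ≤ E) (hu : 0 ≤ u) : E ≤ (2 + 8000000000000 * E) * (2 + 4 * u) := by
  nlinarith [mul_nonneg hE hu]

lemma up_valid [NeZero P] {H : Type} [AddCommGroup H] (mg : H → H → ℝ) (C D : ℝ)
    (A : ℕ → Finset H) (hC : 0 ≤ C) (hD0 : 0 ≤ D) (hD : ∀ x z, mg x z ≤ D)
    (hA : ∀ i, Valid mg C (A i))
    (hex : ∀ i j l, i < 300 → j < 300 → l < 300 → 2 * l + 400 ≤ i + j + 1 →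
      ∀ x ∈ A i, ∀ z ∈ A j, ∀ y ∈ A l, x + z ≠ y + y) :
    Valid (fun p q => (ph P p.1 - ph P q.1) ^ 2 + mg p.2 q.2) (upC C D) (up P A) := by
  choose f hf1 hf2 using hA
  set K : ℝ := 2 + 8000000000000 * (D + 2 * C) with hK
  have hK2 : 2 ≤ K := by rw [hK]; nlinarith
  refine ⟨fun p => K * (3 / 2 - ph P p.1) ^ 2 + f ⌊200 * ph P p.1⌋₊ p.2, ?_, ?_⟩
  · intro p hp
    obtain ⟨i, hi, h1, h2⟩ := mem_up.mp hp
    dsimp only
    rw [slice_idx h1]
    have hi' : (i : ℝ) + 1 ≤ 300 := by exact_mod_cast hi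
    have h3 := hf1 i _ h2
    rw [mem_slice] at h1
    have h0 := ph_nonneg p.1
    have h4 : (3 / 2 - ph P p.1) ^ 2 ≤ 9 / 4 := by nlinarith [h1.2]
    constructor
    · have : 0 ≤ K * (3 / 2 - ph P p.1) ^ 2 := by positivity
      linarith [h3.1]
    · unfold upC
      rw [← hK]
      have : K * (3 / 2 - ph P p.1) ^ 2 ≤ K * (9 / 4) := by gcongr
      linarith [h3.2]
  · intro x hx y hy z hz e
    obtain ⟨i, hi, hx1, hx2⟩ := mem_up.mp hx
    obtain ⟨l, hl, hy1, hy2⟩ := mem_up.mp hy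
    obtain ⟨j, hj, hz1, hz2⟩ := mem_up.mp hz
    dsimp only
    rw [slice_idx hx1, slice_idx hy1, slice_idx hz1]
    have e1 : x.1 + z.1 = y.1 + y.1 := congrArg Prod.fst e
    have e2 : x.2 + z.2 = y.2 + y.2 := congrArg Prod.snd e
    have fx := hf1 i _ hx2
    have fy := hf1 l _ hy2
    have fz := hf1 j _ hz2
    have hm := hD x.2 z.2
    have hi' : (i : ℝ) + 1 ≤ 300 := by exact_mod_cast hi
    have hj' : (j : ℝ) + 1 ≤ 300 := by exact_mod_cast hj
    have hl' : (l : ℝ) + 1 ≤ 300 := by exact_mod_cast hl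
    have hy1' := hy1
    rw [mem_slice] at hx1 hy1 hz1
    set X := ph P x.1
    set Y := ph P y.1
    set Z := ph P z.1
    rcases ph_tri e1 with h | h | h
    · have eq : K * (3 / 2 - X) ^ 2 + K * (3 / 2 - Z) ^ 2 - 2 * (K * (3 / 2 - Y) ^ 2)
          = K / 2 * (X - Z) ^ 2 := by
        have : Y = (X + Z) / 2 := by linarith
        rw [this]; ring
      by_cases hij : i = j
      · subst hij
        have hli : l = i := by
          rw [← slice_idx hy1']
          rw [Nat.floor_eq_iff (by have := ph_nonneg y.1; positivity)]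
          constructor <;> linarith [hx1.1, hx1.2, hz1.1, hz1.2]
        subst hli
        have h5 := hf2 l _ hx2 _ hy2 _ hz2 e2
        have := K_half K _ hK2 (sq_nonneg (X - Z))
        linarith
      · have gap : 1 / 4000000000000 ≤ (X - Z) ^ 2 := by
          rcases lt_or_gt_of_ne hij with h' | h'
          · have : (i : ℝ) + 1 ≤ j := by exact_mod_cast h'
            have : 1 / 2000000 ≤ Z - X := by linarith [hx1.2, hz1.1]
            have := gap_sq _ this
            linarith [show (Z - X) ^ 2 = (X - Z) ^ 2 by ring]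
          · have : (j : ℝ) + 1 ≤ i := by exact_mod_cast h'
            have : 1 / 2000000 ≤ X - Z := by linarith [hx1.1, hz1.2]
            exact gap_sq _ this
        have h6 : (X - Z) ^ 2 + (D + 2 * C) ≤ K / 2 * (X - Z) ^ 2 :=
          K_gap _ _ (by linarith) gap
        linarith [fx.1, fz.1, fy.2]
    · exfalso
      have h7 : (2 * l + 400 : ℝ) < i + j + 2 := by linarith [hx1.2, hz1.2, hy1.1]
      have h8 : 2 * l + 400 < i + j + 2 := by exact_mod_cast h7
      exact hex i j l hi hj hl (by omega) _ hx2 _ hz2 _ hy2 e2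
    · have hY : Y ≤ 3 / 2 := by linarith [hy1.2]
      have eq : K * (3 / 2 - X) ^ 2 + K * (3 / 2 - Z) ^ 2 - 2 * (K * (3 / 2 - Y) ^ 2)
          = K / 2 * (X - Z) ^ 2 + K * (2 + 4 * (3 / 2 - Y)) := by
        have : Y = (X + Z) / 2 + 1 := by linarith
        rw [this]; ring
      have h5 := K_half K _ hK2 (sq_nonneg (X - Z))
      have h6 : D + 2 * C ≤ K * (2 + 4 * (3 / 2 - Y)) :=
        K_far _ _ (by linarith) (by linarith)
      linarith [fx.1, fz.1, fy.2]

/-! ### Doubling -/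

open Classical in
/-- The pull-back of a block under `p ↦ -2p`. -/
noncomputable def dbl {H : Type} [AddCommGroup H] [Fintype H] (S : Finset H) : Finset H :=
  Finset.univ.filter (fun p => -(p + p) ∈ S)

lemma mem_dbl {H : Type} [AddCommGroup H] [Fintype H] {S : Finset H} {p : H} :
    p ∈ dbl S ↔ -(p + p) ∈ S := by
  unfold dbl; simp

lemma dbl_valid {H : Type} [AddCommGroup H] [Fintype H] {mg : H → H → ℝ} {C : ℝ}
    {S : Finset H} (h : Valid mg C S) :
    Valid (fun x z => mg (-(x + x)) (-(z + z))) C (dbl S) := by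
  obtain ⟨f, h1, h2⟩ := h
  refine ⟨fun x => f (-(x + x)), fun x hx => h1 _ (mem_dbl.mp hx), ?_⟩
  intro x hx y hy z hz e
  refine h2 _ (mem_dbl.mp hx) _ (mem_dbl.mp hy) _ (mem_dbl.mp hz) ?_
  calc -(x + x) + -(z + z) = -((x + z) + (x + z)) := by abel
    _ = -(y + y) + -(y + y) := by rw [e]; abel

lemma card_dbl {H : Type} [AddCommGroup H] [Fintype H] (S : Finset H)
    (hinj : ∀ p q : H, p + p = q + q → p = q) : (dbl S).card = S.card := by
  refine Finset.card_bijective (fun p => -(p + p)) ?_ (fun p => mem_dbl)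
  rw [← Finite.injective_iff_bijective]
  intro p q e
  exact hinj p q (neg_injective e)

end Vale.Agent.P057
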